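import Vale.Agent.P218S29.Nc

/-! Static cones which are invariant along a line and have density less than three halves. -/

open MeasureTheory Set Filter Topology Metric

namespace Vale.Agent.P218S29

open Vale.Agent.P218 Vale.Agent.P218G Vale.Agent.P218G.Par
open Vale.Agent.P218G.Lit Vale.Agent.P218G.Rg Vale.Agent.P218G.GL
open Vale.Agent.P218FT (E3)

variable {μ ν : ℝ → Measure E3} {x₀ : E3} {t₀ a D : ℝ}

theorem l0_32 (hμ : IsIntegralBrakkeFlow 2 μ) (h0 : μ 0 univ < ⊤) (hU : IsUnitRegular μ)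
    (h : GS μ a D) (ha : 0 ≤ a) (ht : a < t₀) (hb : Lim μ x₀ t₀ ν)
    (ss : SS ν) (st : Stat ν) {v : E3} (hv : ‖v‖ = 1) (iv : Inv ν v)
    (h2 : GA (ν (-1)) 0 1 < 3 / 2 * om0) (hp : ∀ p, p ∉ axis v → GC.DL ν p (-1)) :
    GA (ν (-1)) 0 1 ≤ om0 := by
  obtain ⟨ι, U, x, t, lam, hb⟩ := hb
  obtain ⟨ε, hε, -, h4⟩ := lim_rs hb hμ h0 hU h ha ht
  have hg : ∀ b, GS ν b D := fun b => (h4 b).gs
  exact half_planes' ((hg (-1)).ent _ le_rfl) hv (spt_cone ss st hg) (spt_inv iv st hg)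
    (restrict_sub ((h4 0).meas _) (isClosed_axis v).measurableSet.compl
      fun p c => rs_mem h4 hε (hp p c)) one_pos h2

end Vale.Agent.P218S29
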