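import Vale.Agent.P218G.L1

/-! Minimal cones which are smooth away from the vertex are planes, without a density bound. -/

open MeasureTheory Set Filter Topology Metric Real
open scoped ENNReal NNReal RealInnerProductSpace ContDiff

namespace Vale.Agent.P218S29

open Vale.Agent.P218G Vale.Agent.P218G.Par P218FT Rg Lit P218F.Ends.Crv

/-- the gradient of a local equation is normal to every plane through `0` in the set -/
lemma grad_perp {C : Set E3} {z n : E3} {w : E3 → ℝ} (hw : IsEqn C z w) (z0 : z ≠ 0)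
    (hz : ⟪n, z⟫ = 0) (hn : ∀ y, ⟪n, y⟫ = 0 → y ≠ 0 → y ∈ C) {y : E3} (hy : ⟪n, y⟫ = 0) :
    ⟪gradient w z, y⟫ = 0 := by
  have l1 : HasDerivAt (fun u : ℝ => z + u • y) y 0 := by
    simpa using ((hasDerivAt_id (0 : ℝ)).smul_const y).const_add z
  have t : Tendsto (fun u : ℝ => z + u • y) (𝓝 0) (𝓝 z) := by
    simpa using l1.continuousAt.tendsto
  have d : HasFDerivAt w (fderiv ℝ w z) (z + (0 : ℝ) • y) := by
    simpa using (hw.1.differentiable (by simp) z).hasFDerivAt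
  rw [inner_grad]
  refine deriv_zero (c := 0) (d.comp_hasDerivAt 0 l1) ?_
  filter_upwards [t.eventually hw.2.2, t.eventually (eventually_ne_nhds z0)] with u a1 a2
  exact a1.1 (hn _ (by rw [inner_add_right, real_inner_smul_right, hz, hy]; simp) a2)

/-- two planes through `0` in a set which is smooth off `0` coincide -/
lemma planes_eq {C : Set E3} (sm : ∀ p ∈ C, p ≠ 0 → ∃ w, IsEqn C p w) {n n' : E3} (n1 : ‖n‖ = 1)
    (n1' : ‖n'‖ = 1) (hn : ∀ y, ⟪n, y⟫ = 0 → y ≠ 0 → y ∈ C)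
    (hn' : ∀ y, ⟪n', y⟫ = 0 → y ≠ 0 → y ∈ C) {x : E3} (hx : ⟪n', x⟫ = 0) : ⟪n, x⟫ = 0 := by
  have h1 := Submodule.finrank_sup_add_finrank_inf_eq (ℝ ∙ n)ᗮ (ℝ ∙ n')ᗮ
  have h2 : Module.finrank ℝ ((ℝ ∙ n)ᗮ ⊔ (ℝ ∙ n')ᗮ : Submodule ℝ E3) ≤ 3 :=
    (Submodule.finrank_le _).trans (by simp)
  rw [finrank_perp n1, finrank_perp n1'] at h1
  obtain ⟨z, hz, z0⟩ := Submodule.exists_mem_ne_zero_of_ne_bot
    (p := ((ℝ ∙ n)ᗮ ⊓ (ℝ ∙ n')ᗮ : Submodule ℝ E3)) fun h => by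
      rw [h, finrank_bot] at h1; omega
  have z1 := Submodule.mem_orthogonal_singleton_iff_inner_right.1 hz.1
  have z2 := Submodule.mem_orthogonal_singleton_iff_inner_right.1 hz.2
  obtain ⟨w, hw⟩ := sm z (hn z z1 z0) z0
  set g := gradient w z with hg
  have nn : ⟪n, n⟫ = 1 := by rw [real_inner_self_eq_norm_sq, n1, one_pow]
  have y1 : ⟪n, g - ⟪n, g⟫ • n⟫ = 0 := by
    rw [inner_sub_right, real_inner_smul_right, nn, mul_one, sub_self]
  have y2 := grad_perp hw z0 z1 hn y1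
  have y3 : g - ⟪n, g⟫ • n = 0 := inner_self_eq_zero (𝕜 := ℝ) |>.1 (by
    nth_rewrite 1 [inner_sub_left]
    rw [y2, real_inner_smul_left, y1, mul_zero, sub_zero])
  have y4 := grad_perp hw z0 z2 hn' hx
  rw [← hg, sub_eq_zero.1 y3, real_inner_smul_left, mul_eq_zero] at y4
  refine y4.resolve_left fun h => hw.2.1 ?_
  rw [← hg, sub_eq_zero.1 y3, h, zero_smul]

/-- **A minimal cone of multiplicity one which is smooth away from the vertex has density at most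
one.** -/
theorem cone_plane' {ν : Measure E3} {D : ℝ} (hE : Ent ν D) {C : Set E3} (hC : IsClosed C)
    (cn : ∀ x ∈ C, ∀ c : ℝ, 0 < c → c • x ∈ C)
    (hν : ν.restrict {0}ᶜ = (μH[2] : Measure E3).restrict (C ∩ {0}ᶜ))
    (sm : ∀ p ∈ C, p ≠ 0 → (∃ w, IsEqn C p w) ∧ Hv C p = 0)
    {σ : ℝ} (hσ : 0 < σ) : GA ν 0 σ ≤ om0 := by
  have o0 := om0_pos
  obtain ⟨v, hv⟩ := exists_norm_eq E3 zero_le_one
  have z : ({0} : Set E3) ⊆ axis v := singleton_subset_iff.2 ⟨0, zero_smul _ _⟩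
  have hG : ENNReal.ofReal (GA ν 0 σ) = ∫⁻ x in C ∩ {0}ᶜ, ENNReal.ofReal (gk0 σ x) ∂μH[2] := by
    rw [← hν, Measure.restrict_eq_self_of_ae_mem (s := ({0} : Set E3)ᶜ)
      (measure_eq_zero_iff_ae_notMem.1 (measure_mono_null z (ent_axis hE hv))), GA,
      ofReal_integral_eq_lintegral_ofReal (hE.int 0 σ hσ)
        (Eventually.of_forall fun x => (gk0_pos hσ _).le)]
    simp only [sub_zero]
  rw [← ENNReal.ofReal_le_ofReal_iff o0.le, hG]
  rcases (C ∩ {0}ᶜ).eq_empty_or_nonempty with h | ⟨x, hx⟩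
  · simp [h]
  obtain ⟨n, n1, -, hn⟩ := plane_sub hC cn sm hx.1 hx.2
  rw [← lintegral_gk0_plane (finrank_perp n1) hσ]
  refine lintegral_mono_set fun x' hx' => ?_
  obtain ⟨n', n1', h1, hn'⟩ := plane_sub hC cn sm hx'.1 hx'.2
  exact Submodule.mem_orthogonal_singleton_iff_inner_right.2
    (planes_eq (fun p a b => (sm p a b).1) n1 n1' hn hn' h1)

end Vale.Agent.P218S29
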