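import Vale.Agent.P218R18.Core

/-! Federer's dimension reduction without the cyclicity: limit cones which split off a line have
density less than three halves. -/

open MeasureTheory Set Filter Topology Metric

namespace Vale.Agent.P218S29

open Vale.Agent.P218 Vale.Agent.P218.H552 Vale.Agent.P218G Vale.Agent.P218G.Par
open Vale.Agent.P218G.Lit Vale.Agent.P218G.Rg Vale.Agent.P218G.GL Vale.Agent.P218G.GC
open Vale.Agent.P218FT (E3 IsShr)
open Vale.Agent.P218F.Dyn (hm)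
open scoped ENNReal RealInnerProductSpace Real

/-- a cone of density less than `3 / 2` which is invariant along a line and has multiplicity one
off the line has density at most one -/
theorem half_planes' {ν : Measure E3} {D : ℝ} (hE : Ent ν D) {C : Set E3} {v : E3} (hv : ‖v‖ = 1)
    (cone : ∀ x ∈ C, ∀ c : ℝ, 0 < c → c • x ∈ C) (inv : ∀ x ∈ C, ∀ z : ℝ, x + z • v ∈ C)
    (hν : ν.restrict (axis v)ᶜ = (μH[2] : Measure E3).restrict (C ∩ (axis v)ᶜ))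
    {σ : ℝ} (hσ : 0 < σ) (h2 : GA ν 0 σ < 3 / 2 * om0) : GA ν 0 σ ≤ om0 := by
  obtain ⟨a, b, hT⟩ := P218FT.exists_triple hv
  have o0 := om0_pos
  have hG : ENNReal.ofReal (GA ν 0 σ) =
      ∫⁻ x in C ∩ (axis v)ᶜ, ENNReal.ofReal (gk0 σ x) ∂μH[2] := by
    rw [← hν, Measure.restrict_eq_self_of_ae_mem (s := (axis v)ᶜ)
      (measure_eq_zero_iff_ae_notMem.1 (ent_axis hE hv)), GA,
      ofReal_integral_eq_lintegral_ofReal (hE.int 0 σ hσ)
        (Eventually.of_forall fun x => (gk0_pos hσ _).le)]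
    simp only [sub_zero]
  have sub : ∀ s, cir a b s ∈ C → hpl a b s ⊆ C ∩ (axis v)ᶜ := fun s hs x hx =>
    ⟨hpl_eq hT hx ▸ inv _ (cone _ hs _ hx.2) _, not_axis hT hx.2⟩
  have sub' : ∀ s, ∀ x ∈ hpl a b s, x ∈ C → cir a b s ∈ C := fun s x hx hC => by
    have h1 := cone _ (inv x hC (-⟪v, x⟫)) _ (inv_pos.2 hx.2)
    rwa [show x + (-⟪v, x⟫) • v = ⟪cir a b s, x⟫ • cir a b s by
      rw [neg_smul, ← sub_eq_add_neg, sub_eq_iff_eq_add]; exact hpl_eq hT hx,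
      inv_smul_smul₀ hx.2.ne'] at h1
  have bound : ∀ F : Finset ℝ, (∀ s ∈ F, s ∈ Ico 0 (0 + 2 * π) ∧ cir a b s ∈ C) →
      F.card < 3 := fun F hF => by
    have h1 : ENNReal.ofReal (F.card * (om0 / 2)) ≤ ENNReal.ofReal (GA ν 0 σ) := by
      rw [hG, ← lintegral_hpls hT F (fun s hs => (hF s hs).1) hσ]
      exact lintegral_mono_set (iUnion₂_subset fun s hs => sub s (hF s hs).2)
    rw [ENNReal.ofReal_le_ofReal_iff (GA_nonneg _ _ hσ.le)] at h1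
    exact_mod_cast (by nlinarith : (F.card : ℝ) < 3)
  have fin : {s ∈ Ico 0 (0 + 2 * π) | cir a b s ∈ C}.Finite := by
    by_contra h
    obtain ⟨F, h1, h3⟩ := Set.Infinite.exists_subset_card_eq h 3
    exact absurd (bound F fun s hs => h1 hs) (by omega)
  set Ω := fin.toFinset with hΩ
  have mem : ∀ s, s ∈ Ω ↔ s ∈ Ico 0 (0 + 2 * π) ∧ cir a b s ∈ C := fun s => Finite.mem_toFinset _
  have cov : C ∩ (axis v)ᶜ ⊆ ⋃ s ∈ Ω, hpl a b s := fun x hx => by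
    obtain ⟨s, h1, h3⟩ := exists_hpl hT hx.2 0
    exact mem_iUnion₂.2 ⟨s, (mem s).2 ⟨h1, sub' s x h3 hx.1⟩, h3⟩
  have c4 := bound Ω fun s hs => (mem s).1 hs
  have c2 : (Ω.card : ℝ) ≤ 2 := by exact_mod_cast (by omega : Ω.card ≤ 2)
  have h1 : ENNReal.ofReal (GA ν 0 σ) ≤ ENNReal.ofReal (Ω.card * (om0 / 2)) := by
    rw [hG, ← lintegral_hpls hT Ω (fun s hs => ((mem s).1 hs).1) hσ]
    exact lintegral_mono_set cov
  rw [ENNReal.ofReal_le_ofReal_iff (by positivity)] at h1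
  nlinarith

/-- static limit cones which are invariant along a line have density less than `3 / 2` -/
def NoTriple (μ : ℝ → Measure E3) (x₀ : E3) (t₀ : ℝ) : Prop :=
  ∀ ν, Lim μ x₀ t₀ ν → SS ν → Stat ν → ∀ v : E3, ‖v‖ = 1 → Inv ν v → GA (ν (-1)) 0 1 < 3 / 2 * om0

variable {μ ν : ℝ → Measure E3} {x₀ : E3} {t₀ a D : ℝ}

lemma NoTriple.noCone (H : NoTriple μ x₀ t₀) : P218R18.NoCone μ x₀ t₀ :=
  fun ν a1 a2 a3 v a4 a5 => (H ν a1 a2 a3 v a4 a5).trans (by nlinarith [om0_pos])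

variable (hμ : IsIntegralBrakkeFlow 2 μ) (h0 : μ 0 univ < ⊤) (hU : IsUnitRegular μ)
  (ha : 0 < a) (ht : a < t₀) (h : GS μ a D) (H : NoTriple μ x₀ t₀)
  (hb : Lim μ x₀ t₀ ν) (ss : SS ν)
include hμ h0 hU ha ht h H hb ss

lemma line_le (st : Stat ν) {v : E3} (hv : ‖v‖ = 1) (iv : Inv ν v) : GA (ν (-1)) 0 1 ≤ om0 := by
  have h2 := H ν hb ss st v hv iv
  have hp : ∀ p, p ∉ axis v → DL ν p (-1) := fun p c =>
    P218R18.c2 hμ h0 ha ht h H.noCone hb ss st hv iv c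
  obtain ⟨ι, U, x, t, lam, hb⟩ := hb
  obtain ⟨ε, hε, -, h4⟩ := lim_rs hb hμ h0 hU h ha.le ht
  have hg : ∀ b, GS ν b D := fun b => (h4 b).gs
  exact half_planes' ((hg (-1)).ent _ le_rfl) hv (spt_cone ss st hg) (spt_inv iv st hg)
    (restrict_sub ((h4 0).meas _) (isClosed_axis v).measurableSet.compl
      fun p c => rs_mem h4 hε (hp p c)) one_pos h2

lemma c1 (st : Stat ν) {p : E3} (hp : p ≠ 0) : DL ν p (-1) := fun θ hθ => by
  obtain ⟨ν', -, a1, a2, a3, -, a4, -, -, a6⟩ := hb.exists_tangent h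
    ((key_ibf hμ h0).later ha.le) ht p 0 (dens_zero st (by norm_num) hθ)
  have a8 : GA (ν' (-1)) 0 1 = θ := a3 1 one_pos
  have iv : Inv ν' (‖p‖⁻¹ • p) := fun b s hs => by rw [smul_smul]; exact a6 rfl ss _ s hs
  exact a8 ▸ line_le hμ h0 hU ha ht h H a1 a2 (a4 le_rfl st) (norm_smul_inv_norm hp) iv

lemma c0 (y : E3) {t : ℝ} (ht' : t < 0) : DL ν y t := fun θ hθ => by
  obtain ⟨ν', -, a1, a2, a3, -, -, -, a5, -⟩ := hb.exists_tangent h
    ((key_ibf hμ h0).later ha.le) ht y t hθ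
  have a8 : GA (ν' (-1)) 0 1 = θ := a3 1 one_pos
  exact a8 ▸ P218R18.l1_lim' hμ h0 hU h ha.le ht a1 a2 (a5 ht' ss) fun q hq =>
    c1 hμ h0 hU ha ht h H a1 a2 (a5 ht' ss) hq

omit ha ht h hb ss in
/-- some tangent flow is a smooth shrinker of bounded geometry -/
theorem gc_nc (ht : 0 < t₀) :
    ∃ S : Set E3, IsShr S ∧ BddGeom S ∧ hm S ∈ tangentSlices 2 μ x₀ t₀ := by
  have hs := half_pos ht
  have hst := half_lt_self ht
  have h := gs_proof μ hμ h0 _ hs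
  obtain ⟨ε, hg⟩ := exists_eps ((μ 0).real univ / (t₀ / 2))
  obtain ⟨T, H', hBF⟩ := H552.exists_BF hμ
  obtain ⟨κ, ⟨S, a1, a2, rfl⟩, a3⟩ := Dyn.mem_tangentSlices (x₀ := x₀) hBF h0 ht
    (P := fun κ => ∃ S, IsShr S ∧ BddGeom S ∧ κ = hm S) fun U lam hl => by
      obtain ⟨ν, hB⟩ := exists_blow U hl h x₀ hst
      have hs' := hB.ss h hst ((key_ibf hμ h0).later hs.le)
      obtain ⟨K, hK⟩ := hB.toLim.rsG hg (hg.ibf μ _ hμ h0 hU hs.le h) hst
      obtain ⟨b1, -, -, b2, D', b3⟩ := shr_of hK hs' fun y t ht' =>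
        (hK (t - 1)).memG hg (by linarith) (c0 hμ h0 hU hs hst h H hB.toLim hs' y ht')
      exact ⟨ν (-1), ⟨_, b1, bdd_lim hμ h0 hU hs.le h hst hB.toLim hs' b1 b3 rfl
        fun ν' d1 d2 y => c0 hμ h0 hU hs hst h H d1 d2 y (by norm_num), b2⟩, hB.lf _,
        hB.lim (-1)⟩
  exact ⟨S, a1, a2, a3⟩

end Vale.Agent.P218S29
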