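import Vale.Agent.P218R.St

/-! A bound on the density of the blow-up limits which are cones invariant along a line. -/

open MeasureTheory

namespace Vale.Agent.P218S29.St

open Vale.Agent.P218 (densityRatio)
open Vale.Agent.P218G.St (planeDensity)
open Vale.Agent.P218R.St (IsSliceLimit IsLineCone)

variable {E : Type} [NormedAddCommGroup E] [InnerProductSpace ℝ E] [FiniteDimensional ℝ E]
  [MeasurableSpace E] [BorelSpace E]

/-- the blow-up limits of time slices near `(x₀, t₀)` which are cones invariant along a line have
Gaussian density less than `k` -/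
def LineConesBelow (μ : ℝ → Measure E) (x₀ : E) (t₀ k : ℝ) : Prop :=
  ∀ κ, IsSliceLimit μ x₀ t₀ κ → IsLineCone κ →
    densityRatio 2 (fun _ => κ) 0 0 1 < k * planeDensity

end Vale.Agent.P218S29.St
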