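import Vale.Agent.P218S29.Nc
import Vale.Agent.P218S29.St2
import Vale.Agent.P218R18.Fin

/-! Points at which the blow-up limits which are cones splitting off a line have small density. -/

open MeasureTheory Set Filter Topology Metric

namespace Vale.Agent.P218S29

open Vale.Agent.P218 Vale.Agent.P218G Vale.Agent.P218G.Lit Vale.Agent.P218G.Rg Vale.Agent.P218G.GL
open Vale.Agent.P218.H313.A1 (dil)
open Vale.Agent.P218FT (E3)

variable {μ : ℝ → Measure E3} {x₀ : E3} {t₀ a D : ℝ}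

theorem noTriple (H : St.LineConesBelow μ x₀ t₀ (3 / 2)) (h : GS μ a D) (ht : a < t₀) :
    NoTriple μ x₀ t₀ := fun ν hb ss st v hv iv => by
  have h1 := H _ (P218R18.slice_of_lim h ht hb) ⟨fun c hc => by
    simpa only [dil, sub_zero] using ss.cone st hc, v, fun c => by simp [c] at hv, fun b => by
    simpa only [dil, one_pow, ENNReal.ofReal_one, one_smul, neg_smul, sub_neg_eq_add]
      using iv (-b) (-1) (by norm_num)⟩
  rw [densityRatio_eq, one_pow, show P218G.St.planeDensity = om0 / (4 * Real.pi) from rfl,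
    ← mul_div_assoc, div_lt_div_iff_of_pos_right (by positivity)] at h1
  exact h1

/-- some tangent flow is a smooth shrinker of bounded geometry -/
theorem case_below (hμ : IsIntegralBrakkeFlow 2 μ) (hU : P218G.St.IsUnitRegular μ)
    (hR : ∃ R : ℝ, μ 0 (closedBall 0 R)ᶜ = 0) (x₀ : E3) (t₀ : ℝ) (ht : 0 < t₀)
    (H : St.LineConesBelow μ x₀ t₀ (3 / 2) ∨
      (P218G.St.IsCyclic μ ∧ St.LineConesBelow μ x₀ t₀ 2)) :
    ∃ S, P218G.St.IsSelfShrinker S ∧ P218G.St.BddGeom S ∧
      P218G.St.hm S ∈ tangentSlices 2 μ x₀ t₀ := by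
  rcases H with H | ⟨hc, H⟩
  · obtain ⟨R, hR⟩ := hR
    have h0 := mass_lt hμ hR
    obtain ⟨S, a1, a2, a3⟩ := gc_nc hμ h0 hU.lit
      (noTriple H (gs_proof μ hμ h0 _ (half_pos ht)) (half_lt_self ht)) ht
    exact ⟨S, (isShr_iff S).2 a1, a2, a3⟩
  · exact P218R18.case_two hμ hU hR x₀ t₀ ht hc H

end Vale.Agent.P218S29
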