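import Vale.Agent.P218FT.ConvA

/-! From smooth convergence along all ultrafilters to smooth convergence along a filter. -/

open Set Filter Topology Metric
open scoped ContDiff

namespace Vale.Agent.P218S29

open Vale.Agent.P218FT Vale.Agent.P218FT.Conv

variable {ι Z : Type} [NormedAddCommGroup Z] [NormedSpace ℝ Z] [FiniteDimensional ℝ Z]

/-- over `D`, the part of `A` in the slab `closedBall c ρ` is the graph of `h` -/
def Gr (A : Set (Z × ℝ)) (D : Set Z) (c ρ : ℝ) (h : Z → ℝ) : Prop :=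
  ∀ ξ ∈ D, h ξ ∈ ball c ρ ∧ ∀ z ∈ closedBall c ρ, (ξ, z) ∈ A ↔ z = h ξ

/-- smooth convergence of hypersurfaces, by local equations -/
structure ELim {X : Type} [NormedAddCommGroup X] [NormedSpace ℝ X] (U : Filter ι)
    (A : ι → Set X) (B : Set X) (O : Set X) : Prop where
  out : ∀ q ∈ O, q ∉ B → ∃ W ∈ 𝓝 q, ∀ᶠ i in U, ∀ p ∈ W, p ∉ A i
  loc : ∀ q ∈ O, q ∈ B → ∃ (W : Set X) (w : ι → X → ℝ) (v : X → ℝ), IsOpen W ∧ q ∈ W ∧
    CInf U W w v ∧ fderiv ℝ v q ≠ 0 ∧ (∀ p ∈ W, p ∈ B ↔ v p = 0) ∧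
    ∀ᶠ i in U, ∀ p ∈ W, p ∈ A i ↔ w i p = 0

/-- a compact set off the limit is eventually empty -/
theorem out_compact {X : Type} [TopologicalSpace X] {U : Filter ι} {A : ι → Set X} {K : Set X}
    (hK : IsCompact K) (h : ∀ q ∈ K, ∃ W ∈ 𝓝 q, ∀ᶠ i in U, ∀ p ∈ W, p ∉ A i) :
    ∃ W ∈ 𝓝ˢ K, ∀ᶠ i in U, ∀ p ∈ W, p ∉ A i := by
  have h1 : {r : ι × X | r.2 ∉ A r.1} ∈ U ×ˢ 𝓝ˢ K := by
    refine hK.mem_prod_nhdsSet_of_forall fun q hq => ?_
    obtain ⟨W, hW, hi⟩ := h q hq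
    exact mem_of_superset (prod_mem_prod hi hW) fun r hr => hr.1 r.2 hr.2
  obtain ⟨s, hs, t, ht, hst⟩ := mem_prod_iff.1 h1
  exact ⟨t, ht, mem_of_superset hs fun i hi p hp => hst (mk_mem_prod hi hp)⟩

/-- the canonical height -/
noncomputable def ht (A : Set (Z × ℝ)) (c ρ : ℝ) (ξ : Z) : ℝ :=
  Classical.epsilon fun z => z ∈ closedBall c ρ ∧ (ξ, z) ∈ A

omit [NormedAddCommGroup Z] [NormedSpace ℝ Z] [FiniteDimensional ℝ Z] in
theorem Gr.ht_eq {A : Set (Z × ℝ)} {D : Set Z} {c ρ : ℝ} {h : Z → ℝ} (H : Gr A D c ρ h) {ξ : Z}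
    (hξ : ξ ∈ D) : h ξ = ht A c ρ ξ := by
  obtain ⟨h1, h2⟩ := H ξ hξ
  have h3 := ball_subset_closedBall h1
  have h4 : (fun z => z ∈ closedBall c ρ ∧ (ξ, z) ∈ A) (ht A c ρ ξ) :=
    Classical.epsilon_spec (p := fun z => z ∈ closedBall c ρ ∧ (ξ, z) ∈ A)
      ⟨h ξ, h3, (h2 _ h3).2 rfl⟩
  exact ((h2 _ h4.1).1 h4.2).symm

omit [FiniteDimensional ℝ Z] in
/-- an equation of a graph has a nonzero vertical derivative -/
theorem vert_ne {v : Z × ℝ → ℝ} {h : Z → ℝ} {ξ : Z} (hv : DifferentiableAt ℝ v (ξ, h ξ))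
    (hh : DifferentiableAt ℝ h ξ) (h0 : ∀ᶠ η in 𝓝 ξ, v (η, h η) = 0)
    (hne : fderiv ℝ v (ξ, h ξ) ≠ 0) : fderiv ℝ v (ξ, h ξ) (0, 1) ≠ 0 := by
  intro e
  apply hne
  have h1 : HasFDerivAt (fun η => v (η, h η)) ((fderiv ℝ v (ξ, h ξ)).comp
      ((ContinuousLinearMap.id ℝ Z).prod (fderiv ℝ h ξ))) ξ :=
    HasFDerivAt.comp (f := fun η => (η, h η)) ξ hv.hasFDerivAt
      ((hasFDerivAt_id ξ).prodMk hh.hasFDerivAt)
  have h2 : HasFDerivAt (fun η => v (η, h η)) (0 : Z →L[ℝ] ℝ) ξ :=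
    (hasFDerivAt_const (0 : ℝ) ξ).congr_of_eventuallyEq h0
  have h3 := h1.unique h2
  refine ContinuousLinearMap.ext fun p => ?_
  have h4 : fderiv ℝ v (ξ, h ξ) (p.1, fderiv ℝ h ξ p.1) = 0 := by
    simpa using congrArg (fun L : Z →L[ℝ] ℝ => L p.1) h3
  have h5 : p = (p.1, fderiv ℝ h ξ p.1) + (p.2 - fderiv ℝ h ξ p.1) • ((0, 1) : Z × ℝ) := by
    ext <;> simp
  rw [h5, map_add, map_smul, h4, e]
  simp

/-- the local statement along one filter -/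
theorem loc_graph {U : Filter ι} [U.NeBot] {A : ι → Set (Z × ℝ)} {B O : Set (Z × ℝ)}
    (H : ELim U A B O) {D : Set Z} (hD : IsOpen D) {c ρ : ℝ} {h₀ : Z → ℝ}
    (hO : D ×ˢ closedBall c ρ ⊆ O) (hs : ContDiffOn ℝ ∞ h₀ D) (hB : Gr B D c ρ h₀) {ξ : Z}
    (hξ : ξ ∈ D) : ∃ ε : ℝ, 0 < ε ∧ CInf U (ball ξ ε) (fun i => ht (A i) c ρ) h₀ ∧
      ∀ᶠ i in U, Gr (A i) (ball ξ ε) c ρ (ht (A i) c ρ) := by
  have hb := (hB ξ hξ).1
  have hcb := ball_subset_closedBall hb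
  obtain ⟨W, w, v, hW, hqW, hc, hne, hBv, hAw⟩ :=
    H.loc (ξ, h₀ ξ) (hO (mk_mem_prod hξ hcb)) (((hB ξ hξ).2 _ hcb).2 rfl)
  have hh : DifferentiableAt ℝ h₀ ξ :=
    ((hs ξ hξ).contDiffAt (hD.mem_nhds hξ)).differentiableAt (by simp)
  have hv : DifferentiableAt ℝ v (ξ, h₀ ξ) :=
    ((hc.smooth_lim _ hqW).contDiffAt (hW.mem_nhds hqW)).differentiableAt (by simp)
  have h0 : ∀ᶠ η in 𝓝 ξ, v (η, h₀ η) = 0 := by
    have h1 : ∀ᶠ η in 𝓝 ξ, (η, h₀ η) ∈ W :=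
      (continuousAt_id.prodMk hh.continuousAt).eventually (hW.mem_nhds hqW)
    filter_upwards [h1, hD.mem_nhds hξ] with η e1 e2
    exact (hBv _ e1).1 (((hB η e2).2 _ (ball_subset_closedBall (hB η e2).1)).2 rfl)
  have hW' : IsOpen (W ∩ D ×ˢ ball c ρ) := hW.inter (hD.prod isOpen_ball)
  obtain ⟨δ, r, h, g, hδ, hr, hsub, hcg, -, hg, hA⟩ :=
    impl hW' (hc.mono inter_subset_left) (v := (ξ, h₀ ξ)) ⟨hqW, mk_mem_prod hξ hb⟩
      h0.self_of_nhds (vert_ne hv hh h0 hne)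
  have hK : IsCompact (({ξ} : Set Z) ×ˢ (closedBall c ρ \ ball (h₀ ξ) r)) :=
    isCompact_singleton.prod ((isCompact_closedBall c ρ).diff isOpen_ball)
  obtain ⟨V, hV, hVA⟩ := out_compact (U := U) (A := A) hK (by
    rintro ⟨η, z⟩ ⟨e1, e2, e3⟩
    obtain rfl : η = ξ := e1
    refine H.out _ (hO (mk_mem_prod hξ e2)) fun e4 => e3 ?_
    have e5 : z = h₀ η := ((hB η hξ).2 z e2).1 e4
    exact e5 ▸ mem_ball_self hr)
  rw [isCompact_singleton.nhdsSet_prod_eq ((isCompact_closedBall c ρ).diff isOpen_ball),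
    nhdsSet_singleton] at hV
  obtain ⟨s, hs1, t, ht1, hst⟩ := mem_prod_iff.1 hV
  obtain ⟨ε, hε, hεs⟩ := Metric.mem_nhds_iff.1 (inter_mem hs1 (ball_mem_nhds ξ hδ))
  have hG : ∀ᶠ i in U, Gr (A i) (ball ξ ε) c ρ (h i) := by
    filter_upwards [hA, hAw, hVA] with i e1 e2 e3 η hη
    obtain ⟨e4, e5⟩ := e1 η (hεs hη).2
    have e6 := hsub (mk_mem_prod (hεs hη).2 (ball_subset_closedBall e4))
    refine ⟨e6.2.2, fun z hz => ⟨fun hzA => ?_, fun e => ?_⟩⟩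
    · by_cases e7 : z ∈ ball (h₀ ξ) r
      · have e8 := ball_subset_closedBall e7
        exact (e5 z e8).1 ((e2 _ (hsub (mk_mem_prod (hεs hη).2 e8)).1).1 hzA)
      · exact absurd hzA (e3 _ (hst (mk_mem_prod (hεs hη).1 (subset_of_mem_nhdsSet ht1 ⟨hz, e7⟩))))
    · subst e
      exact (e2 _ e6.1).2 ((e5 _ (ball_subset_closedBall e4)).2 rfl)
  refine ⟨ε, hε, (hcg.mono fun η hη => (hεs hη).2).congr isOpen_ball
    (hG.mono fun i hi η hη => hi.ht_eq hη) fun η hη => ?_, hG.mono fun i hi η hη => ?_⟩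
  · obtain ⟨e4, e5⟩ := hg η (hεs hη).2
    have e6 := hsub (mk_mem_prod (hεs hη).2 (ball_subset_closedBall e4))
    exact ((hB η e6.2.1).2 _ (ball_subset_closedBall e6.2.2)).1
      ((hBv _ e6.1).2 ((e5 _ (ball_subset_closedBall e4)).2 rfl))
  · exact hi.ht_eq hη ▸ hi η hη

/-- **Smooth convergence of graphs along a filter** from smooth convergence along all finer
ultrafilters: over every compact part `K` of the domain of the limit graph. -/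
theorem graph_of_ultra {F : Filter ι} {A : ι → Set (Z × ℝ)} {B O : Set (Z × ℝ)}
    (H : ∀ U : Ultrafilter ι, (U : Filter ι) ≤ F → ELim U A B O) {D K : Set Z} (hD : IsOpen D)
    (hK : IsCompact K) (hKD : K ⊆ D) {c ρ : ℝ} {h₀ : Z → ℝ} (hO : D ×ˢ closedBall c ρ ⊆ O)
    (hs : ContDiffOn ℝ ∞ h₀ D) (hB : Gr B D c ρ h₀) :
    CInf F K (fun i => ht (A i) c ρ) h₀ ∧ ∀ᶠ i in F, Gr (A i) K c ρ (ht (A i) c ρ) := by
  have key : ∀ P : ι → Z → Prop, (∀ (U : Ultrafilter ι) (ξ : Z) (ε : ℝ),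
      CInf U (ball ξ ε) (fun i => ht (A i) c ρ) h₀ →
      (∀ᶠ i in U, Gr (A i) (ball ξ ε) c ρ (ht (A i) c ρ)) → ∀ᶠ i in U, ∀ η ∈ ball ξ ε, P i η) →
      ∀ᶠ i in F, ∀ η ∈ K, P i η := by
    intro P hP
    refine Filter.mem_iff_ultrafilter.2 fun U hU => ?_
    obtain ⟨V, hV, hi⟩ := out_compact (U := (U : Filter ι)) (A := fun i => {η | ¬ P i η}) hK
      fun ξ hξ => by
        obtain ⟨ε, hε, h1, h2⟩ := loc_graph (H U hU) hD hO hs hB (hKD hξ)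
        exact ⟨_, ball_mem_nhds ξ hε, (hP U ξ ε h1 h2).mono fun i hi η hη => not_not.2 (hi η hη)⟩
    exact hi.mono fun i hi η hη => not_not.1 (hi η (subset_of_mem_nhdsSet hV hη))
  refine ⟨⟨?_, hs.mono hKD, fun k u hu => ?_, fun k => ?_⟩,
    key _ fun U ξ ε _ h2 => h2⟩
  · refine (key (fun i η => ContDiffAt ℝ ∞ (ht (A i) c ρ) η) fun U ξ ε h1 _ => ?_).mono
      fun i hi η hη => (hi η hη).contDiffWithinAt
    exact h1.smooth.mono fun i hi η hη => (hi η hη).contDiffAt (isOpen_ball.mem_nhds hη)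
  · exact key _ fun U ξ ε h1 _ => h1.conv k u hu
  · refine hK.exists_bound_of_continuousOn fun η hη => ContinuousAt.continuousWithinAt ?_
    exact ((hs η (hKD hη)).contDiffAt (hD.mem_nhds (hKD hη))).continuousAt_iteratedFDeriv (le_inf k)

/-- points off a closed limit have a neighbourhood which is eventually empty -/
theorem out_of_ultra {X : Type} [NormedAddCommGroup X] [NormedSpace ℝ X] {F : Filter ι}
    {A : ι → Set X} {B O K : Set X}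
    (H : ∀ U : Ultrafilter ι, (U : Filter ι) ≤ F → ELim U A B O) (hK : IsCompact K)
    (hKO : K ⊆ O) (hKB : ∀ q ∈ K, q ∉ B) : ∀ᶠ i in F, ∀ p ∈ K, p ∉ A i := by
  refine Filter.mem_iff_ultrafilter.2 fun U hU => ?_
  obtain ⟨V, hV, hi⟩ := out_compact (U := (U : Filter ι)) (A := A) hK
    fun q hq => (H U hU).out q (hKO hq) (hKB q hq)
  exact hi.mono fun i hi p hp => hi p (subset_of_mem_nhdsSet hV hp)

end Vale.Agent.P218S29
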