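import Vale.Agent.P218G.AGen1
import Vale.Agent.P218G.ConvL2
import Vale.Agent.P218FT.ConvD
import Vale.Agent.P218S7.Ultra

/-! Weak convergence of the rescalings to a smooth flow of multiplicity one is smooth
convergence. -/

open MeasureTheory Set Filter Topology Metric
open scoped ENNReal NNReal RealInnerProductSpace ContDiff

namespace Vale.Agent.P218S29

open Vale.Agent.P218G Vale.Agent.P218G.Rg Vale.Agent.P218G.Lit Vale.Agent.P218FT
open Vale.Agent.P218 (rescaled IsIntegralBrakkeFlow)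
open Vale.Agent.P218.H313.A1 (dil)
open Vale.Agent.P218F.Dyn (hm)
open Vale.Agent.P218F.DynBridge

variable {μ : ℝ → Measure E3} {x₀ : E3} {t₀ a D : ℝ} {S : Set E3}

/-- the parabolic rescalings about `(x₀, t₀)` converge to the self-similar flow of `S` -/
def Cv (μ : ℝ → Measure E3) (x₀ : E3) (t₀ : ℝ) (S : Set E3) : Prop :=
  ∀ s < 0, ∀ φ : E3 → ℝ, Continuous φ → HasCompactSupport φ →
    Tendsto (fun lam => ∫ x, φ x ∂(rescaled 2 μ x₀ t₀ lam s)) atTop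
      (𝓝 (∫ x, φ x ∂(hm (ssFlow S s))))

lemma ev_t (ha : a < t₀) (s : ℝ) : ∀ᶠ lam : ℝ in atTop, 0 < lam ∧ a < t₀ + s / lam ^ 2 := by
  filter_upwards [Conv.ev_time (lam := fun lam : ℝ => lam) tendsto_id ha s] with lam hl
  exact ⟨hl.1, hl.2 s le_rfl⟩

lemma ent_res (h : GS μ a D) (ha : a < t₀) (x₀ : E3) (s : ℝ) :
    ∀ᶠ lam : ℝ in atTop, Ent (rescaled 2 μ x₀ t₀ lam s) D :=
  (ev_t ha s).mono fun _ hl => (h.ent _ hl.2.le).dil hl.1 x₀

lemma lf_hm {N : Set E3} (hN : IsSurf N) : IsLocallyFiniteMeasure (hm N) := by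
  have := Chart.locFin_proof N hN
  rw [hm_eq]
  infer_instance

lemma ent_ss (h : GS μ a D) (ha : a < t₀) (hS : IsShr S) (hc : Cv μ x₀ t₀ S) {s : ℝ} (hs : s < 0) :
    Ent (hm (ssFlow S s)) D :=
  ent_lim (ent_res h ha x₀ s) (lf_hm ((isMCF_ssFlow hS).isSurf hs))
    fun φ h1 h2 => hc s hs φ h1.continuous h2

lemma unif_ss (h : GS μ a D) (ha : a < t₀) (hS : IsShr S) (hc : Cv μ x₀ t₀ S) {s : ℝ} (hs : s < 0)
    (R σ₁ σ₂ η : ℝ) (h1 : 0 < σ₁) (h2 : 0 < η) : ∀ᶠ lam : ℝ in atTop, ∀ (y : E3) (σ : ℝ),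
      ‖y‖ ≤ R → σ₁ ≤ σ → σ ≤ σ₂ →
      |GA (rescaled 2 μ x₀ t₀ lam s) y σ - GA (hm (ssFlow S s)) y σ| ≤ η :=
  unif_proof _ _ _ _ D (ent_res h ha x₀ s) (ent_ss h ha hS hc hs)
    (fun φ h1 h2 => hc s hs φ h1.continuous h2) R σ₁ σ₂ η h1 h2

lemma low_ss (h : GS μ a D) (ha : a < t₀) (hS : IsShr S) (hc : Cv μ x₀ t₀ S) {t : ℝ} (ht : t < 0)
    (x : E3) {ε : ℝ} (hε : 0 < ε) : ∃ ρ : ℝ, 0 < ρ ∧ ∀ s ≤ t, ∀ᶠ lam : ℝ in atTop,
      ∀ t' : ℝ, t' - (ρ / lam) ^ 2 = t₀ + s / lam ^ 2 → Low μ (x₀ + lam⁻¹ • x) t' (ρ / lam) ε := by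
  have h1 := om0_pos
  have hE : Ent (hm S) D := by
    have := ent_ss h ha hS hc (s := -1) (by norm_num)
    rwa [ssFlow, neg_neg, Real.sqrt_one, scaleSet_one_zero] at this
  have q0 : 0 < √(-t) := Real.sqrt_pos.2 (by linarith)
  obtain ⟨σ₀, h2, h3⟩ := slow_proof S D hS.1 hE ((‖x‖ + 3) / √(-t)) (ε / 2) (half_pos hε)
  obtain ⟨ρ, r0, r1, r2⟩ : ∃ ρ : ℝ, 0 < ρ ∧ ρ ≤ 1 ∧ ρ ≤ σ₀ * (-t) :=
    ⟨min 1 (σ₀ * (-t)), lt_min one_pos (mul_pos h2 (by linarith)), min_le_left _ _,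
      min_le_right _ _⟩
  refine ⟨ρ, r0, fun s hs => ?_⟩
  have hs0 : s < 0 := hs.trans_lt ht
  have q1 : 0 < √(-s) := Real.sqrt_pos.2 (by linarith)
  filter_upwards [unif_ss h ha hS hc hs0 (‖x‖ + 3) (ρ ^ 2 / 2) (ρ ^ 2) (ε / 2 * om0)
    (by positivity) (by positivity), eventually_gt_atTop 0] with k a2 e0 t' e3 z σ b1 b2 b3
  have c1 : ‖k • (z - x₀)‖ ≤ ‖x‖ + 3 := by
    have d1 : k • (z - x₀) = x + k • (z - (x₀ + k⁻¹ • x)) := by
      rw [← sub_sub, smul_sub k (z - x₀), smul_inv_smul₀ e0.ne']; abel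
    have d2 := norm_add_le x (k • (z - (x₀ + k⁻¹ • x)))
    rw [← d1, norm_smul k (z - (x₀ + k⁻¹ • x)), Real.norm_of_nonneg e0.le] at d2
    rw [← mul_div_assoc, le_div_iff₀' e0] at b1
    linarith
  rw [div_pow, div_right_comm, div_le_iff₀ (by positivity)] at b2
  rw [div_pow, le_div_iff₀ (by positivity)] at b3
  have c0 : 0 < σ * k ^ 2 := lt_of_lt_of_le (by positivity) b2
  have c3 := (abs_le.1 (a2 _ (σ * k ^ 2) c1 b2 b3)).2
  rw [rescaled_eq_dil, GA_dil e0, Sc.up_dn e0.ne', mul_div_cancel_right₀ _ (by positivity), ssFlow,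
    hm_scale q1, GA_dil q1] at c3
  have c4 := h3 (0 + (√(-s))⁻¹ • k • (z - x₀)) (σ * k ^ 2 / √(-s) ^ 2) (by
    rw [zero_add, norm_smul, norm_inv, Real.norm_of_nonneg q1.le, inv_mul_eq_div]
    gcongr) (by positivity) (by
    rw [Real.sq_sqrt (by linarith), div_le_iff₀ (by linarith)]
    nlinarith)
  rw [e3]
  linarith

/-- regularity and two-point bounds of the rescaled flows -/
theorem reg_ev (hW : WeakWhiteStmt) (hμ : IsIntegralBrakkeFlow 2 μ) (h0 : μ 0 univ < ⊤)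
    (hU : IsUnitRegular μ) (h : GS μ a D) (ha0 : 0 ≤ a) (ha : a < t₀) (hS : IsShr S)
    (hc : Cv μ x₀ t₀ S) {t : ℝ} (ht : t < 0) (x : E3) :
    ∃ W ∈ 𝓝 (t, x), ∃ r C : ℝ, 0 < r ∧ ∀ᶠ lam : ℝ in atTop,
      W ⊆ WL.scaleReg lam x₀ t₀ (RegS μ) ∧ ∀ p ∈ W, p.2 ∈ scaleFlow lam x₀ t₀ (Spt μ) p.1 →
        TwoPt (scaleFlow lam x₀ t₀ (Spt μ) p.1) p.2 r C := by
  obtain ⟨ε, r, C, hε, hr, hr1, -, h2⟩ := hW D
  obtain ⟨ρ, r0, h3⟩ := low_ss h ha hS hc ht x hε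
  have p0 : 0 < (r * ρ) ^ 2 / 2 := by positivity
  have p1 : (r * ρ) ^ 2 ≤ ρ ^ 2 := by
    rw [mul_pow]
    exact mul_le_of_le_one_left (sq_nonneg _) (pow_le_one₀ hr.le hr1)
  refine ⟨Ioo (t - (r * ρ) ^ 2 / 2) (t + (r * ρ) ^ 2 / 2) ×ˢ ball x (r * ρ), prod_mem_nhds
    (Ioo_mem_nhds (by linarith) (by linarith)) (ball_mem_nhds x (by positivity)), r * ρ, C / ρ,
    by positivity, ?_⟩
  filter_upwards [h3 (t + (r * ρ) ^ 2 / 2 - ρ ^ 2) (by linarith),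
    ev_t ha (t + (r * ρ) ^ 2 / 2 - ρ ^ 2)] with k a1 ⟨e0, a2⟩
  have e1 : t₀ + (t + (r * ρ) ^ 2 / 2) / k ^ 2 - (ρ / k) ^ 2 =
      t₀ + (t + (r * ρ) ^ 2 / 2 - ρ ^ 2) / k ^ 2 := by field_simp; ring
  have k2 : 0 < k ^ 2 := by positivity
  have key := fun p (hp : p ∈ Ioo (t - (r * ρ) ^ 2 / 2) (t + (r * ρ) ^ 2 / 2) ×ˢ ball x (r * ρ)) =>
    h2 μ hμ h0 hU a _ _ _ (div_pos r0 e0) ha0 h (e1 ▸ a2.le) (a1 _ e1) (t₀ + p.1 / k ^ 2) ⟨by
      have : t₀ + (t + (r * ρ) ^ 2 / 2) / k ^ 2 - (r * (ρ / k)) ^ 2 =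
        t₀ + (t - (r * ρ) ^ 2 / 2) / k ^ 2 := by field_simp; ring
      rw [this]
      have := div_le_div_of_nonneg_right hp.1.1.le k2.le
      linarith, by
      have := div_le_div_of_nonneg_right hp.1.2.le k2.le
      linarith⟩ (x₀ + k⁻¹ • p.2) (by
      rw [add_sub_add_left_eq_sub, ← smul_sub, norm_smul, norm_inv, Real.norm_of_nonneg e0.le,
        inv_mul_eq_div, ← mul_div_assoc]
      exact div_le_div_of_nonneg_right (mem_ball_iff_norm.1 hp.2).le e0.le)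
  refine ⟨fun p hp => (key p hp).1, fun p hp hm => (twoPt_scale e0 hm _ _).2 ?_⟩
  rw [mul_div_assoc, div_mul]
  exact (key p hp).2 hm

/-- the points of the limit lie on the self-similar flow -/
lemma sub_ss (h : GS μ a D) (ha : a < t₀) (hS : IsShr S) (hc : Cv μ x₀ t₀ S) {U : Filter ℝ}
    [U.NeBot] (hU : U ≤ atTop) {s : ℝ} (hs : s < 0) {x : E3} {y : ℝ → E3} (y1 : Tendsto y U (𝓝 x))
    (y2 : ∀ᶠ lam in U, y lam ∈ scaleFlow lam x₀ t₀ (Spt μ) s) : x ∈ ssFlow S s := by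
  by_contra hx
  have h1 := om0_pos
  obtain ⟨δ, hδ, h2⟩ := Metric.eventually_nhds_iff_ball.1 ((isMCF_ssFlow hS).closed s hs x hx)
  have h3 : Tendsto (fun σ : ℝ => 2 * Real.exp (-(δ / 2) ^ 2 / (8 * σ)) * D) (𝓝[>] 0)
      (𝓝 (2 * 0 * D)) := by
    refine (Tendsto.const_mul 2 (Real.tendsto_exp_atBot.comp ?_)).mul_const D
    have := tendsto_inv_nhdsGT_zero.const_mul_atTop_of_neg
      (show -(δ / 2) ^ 2 / 8 < (0 : ℝ) by have := sq_pos_of_pos (half_pos hδ); linarith)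
    refine this.congr fun σ => ?_
    ring
  obtain ⟨σ, ⟨s1, s2⟩, s3⟩ := (((h3.eventually (gt_mem_nhds (show 2 * 0 * D < om0 / 2 by
    linarith))).and self_mem_nhdsWithin).and (mem_nhdsWithin_of_mem_nhds (gt_mem_nhds hδ))).exists
  have s2' : 0 < σ := s2
  have s3' : σ < δ := s3
  have hs' : s - σ < 0 := by linarith
  obtain ⟨k, ⟨⟨b1, b2⟩, b3⟩, e0, b4⟩ := (((y2.and (y1.eventually (ball_mem_nhds x (lt_min one_pos
    (half_pos hδ))))).and (hU (unif_ss h ha hS hc hs' (‖x‖ + 1) σ σ (om0 / 4) s2'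
      (by positivity)))).and (hU (ev_t ha (s - σ)))).exists
  have b5 := mem_ball_iff_norm.1 b2
  have c1 := (abs_le.1 (b3 (y k) σ (by
    linarith [norm_le_norm_add_norm_sub' (y k) x, min_le_left 1 (δ / 2)]) le_rfl le_rfl)).2
  have k2 : 0 < k ^ 2 := by positivity
  have c2 := h.low b1 b4.le (by
    have := div_lt_div_of_pos_right (show s - σ < s by linarith) k2
    linarith)
  rw [rescaled_eq_dil, GA_dil e0] at c1
  rw [show t₀ + s / k ^ 2 - (t₀ + (s - σ) / k ^ 2) = σ / k ^ 2 by ring] at c2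
  have c3 := (ent_ss h ha hS hc hs').GA_le_ball (y k) (half_pos hδ).le s2'
  have c4 : (hm (ssFlow S (s - σ))).restrict (ball (y k) (δ / 2)) = 0 := by
    rw [Measure.restrict_eq_zero, hm, Measure.restrict_apply measurableSet_ball]
    rw [eq_empty_of_forall_notMem (s := ball (y k) (δ / 2) ∩ ssFlow S (s - σ)) fun z hz => ?_,
      measure_empty]
    refine h2 (s - σ, z) ?_ hz.2
    rw [← ball_prod_same]
    refine ⟨mem_ball_iff_norm.2 ?_, mem_ball_iff_norm.2 ?_⟩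
    · simpa [abs_of_pos s2'] using s3'
    · have := mem_ball_iff_norm.1 hz.1
      linarith [norm_sub_le_norm_sub_add_norm_sub z (y k) x, min_le_right 1 (δ / 2)]
  rw [c4, integral_zero_measure] at c3
  linarith

/-- the points of the self-similar flow are limits -/
lemma ss_sub (h : GS μ a D) (ha : a < t₀) (hS : IsShr S) (hc : Cv μ x₀ t₀ S) {U : Filter ℝ}
    [U.NeBot] (hU : U ≤ atTop) {s : ℝ} (hs : s < 0) {x : E3} {W : Set E3} (hW : W ∈ 𝓝 x)
    (h1 : ∀ᶠ lam in U, ∀ y ∈ W, y ∉ scaleFlow lam x₀ t₀ (Spt μ) s) : x ∉ ssFlow S s := by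
  intro hx
  have hN := (isMCF_ssFlow hS).isSurf hs
  obtain ⟨δ, hδ, h2⟩ := Metric.mem_nhds_iff.1 hW
  let χ : ContDiffBump x := ⟨δ / 2, δ, half_pos hδ, half_lt_self hδ⟩
  have h3 : ∫ y, χ y ∂(hm (ssFlow S s)) = 0 := by
    refine tendsto_nhds_unique ((hc s hs χ χ.continuous χ.hasCompactSupport).mono_left hU)
      (tendsto_const_nhds.congr' ?_)
    filter_upwards [h1, hU (ev_t ha s)] with k b1 ⟨e0, b2⟩
    refine (integral_eq_zero_of_ae ?_).symm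
    have b3 := (h.scale e0 x₀ t₀).supp s (by
      have k2 : 0 < k ^ 2 := by positivity
      rw [← lt_div_iff₀ k2]
      linarith)
    rw [spt_rescaled e0] at b3
    filter_upwards [b3] with y hy
    refine χ.zero_of_le_dist (not_lt.1 fun hd => b1 y (h2 hd) hy)
  have := lf_hm hN
  have h4 := (integral_eq_zero_iff_of_nonneg (fun y => χ.nonneg (x := y))
    (χ.continuous.integrable_of_hasCompactSupport χ.hasCompactSupport)).1 h3
  obtain ⟨r, ⟨r1, r2⟩, r3⟩ := (((Chart.lower_proof _ hN x hx).and self_mem_nhdsWithin).and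
    (mem_nhdsWithin_of_mem_nhds (gt_mem_nhds (half_pos hδ)))).exists
  have r2' : 0 < r := r2
  have r3' : r < δ / 2 := r3
  have h5 : hm (ssFlow S s) (ball x r) = 0 := by
    refine measure_mono_null (fun y hy => ?_) (ae_iff.1 h4)
    have e : χ y = 1 :=
      χ.one_of_mem_closedBall (ball_subset_closedBall (ball_subset_ball r3'.le hy))
    simp [e]
  have h6 : area (ssFlow S s) (ball x r) = 0 := by
    rw [hm_eq] at h5
    simpa [cE_ne] using h5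
  rw [h6] at r1
  exact absurd r1 (not_le.2 (ENNReal.ofReal_pos.2 (by positivity)))

/-- **Smooth convergence**: the supports of the rescaled flows converge smoothly, with
multiplicity one, as the scale tends to infinity -/
theorem slim_weak (hG : GSStmt) (hGl : GlueStmt) (hW : WeakWhiteStmt)
    (hμ : IsIntegralBrakkeFlow 2 μ) (h0 : μ 0 univ < ⊤) (hU : IsUnitRegular μ) (ht : 0 < t₀)
    (hS : IsShr S) (hc : Cv μ x₀ t₀ S) (U : Ultrafilter ℝ) (hUa : (U : Filter ℝ) ≤ atTop) :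
    SLim U (fun lam => scaleFlow lam x₀ t₀ (Spt μ)) (ssFlow S) (Iio 0) := by
  have h := hG μ hμ h0 _ (half_pos ht)
  have ha := half_lt_self ht
  obtain ⟨g1, -, -⟩ := hGl μ fun a ha => ⟨_, hG μ hμ h0 a ha⟩
  have g2 : WL.MCFOn (Spt μ) (RegS μ) := ⟨g1.isOpen, g1.closed, g1.loc⟩
  obtain ⟨L, -, hL⟩ := CL.comp_on U (fun lam => scaleFlow lam x₀ t₀ (Spt μ))
    (fun lam => WL.scaleReg lam x₀ t₀ (RegS μ)) isOpen_Iio
    (((eventually_gt_atTop 0).filter_mono hUa).mono fun k hk => g2.scale hk x₀ t₀) fun t ht' x => by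
      obtain ⟨W, a1, r, C, a2, a3⟩ := reg_ev hW hμ h0 hU h (half_pos ht).le ha hS hc ht' x
      exact ⟨W, a1, r, C, a2, hUa a3⟩
  refine hL.congr isOpen_Iio fun s hs => Subset.antisymm (fun x hx => ?_) fun x hx => ?_
  · obtain ⟨y, y1, y2⟩ := (hL.slice_const hs).exists_seq hx
    exact sub_ss h ha hS hc hUa hs y1 y2
  · by_contra hn
    obtain ⟨W, a1, a2⟩ := (hL.slice_const hs).out x hn
    exact ss_sub h ha hS hc hUa hs a1 a2 hx

theorem slim_atTop (hG : GSStmt) (hGl : GlueStmt) (hW : WeakWhiteStmt)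
    (hμ : IsIntegralBrakkeFlow 2 μ) (h0 : μ 0 univ < ⊤) (hU : IsUnitRegular μ) (ht : 0 < t₀)
    (hS : IsShr S) (hc : Cv μ x₀ t₀ S) :
    SLim atTop (fun lam => scaleFlow lam x₀ t₀ (Spt μ)) (ssFlow S) (Iio 0) :=
  P218S7.slim_of_ultra isOpen_Iio (slim_weak hG hGl hW hμ h0 hU ht hS hc)

/-- the area measure of a piece of surface, after rescaling -/
lemma restrict_dil {m : Measure E3} {M U V : Set E3}
    (he : m.restrict U = (μH[2] : Measure E3).restrict (M ∩ U)) {lam : ℝ} {x₀ : E3} (hl : 0 < lam)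
    (hV : MeasurableSet V) (hU : ∀ y ∈ V, x₀ + lam⁻¹ • y ∈ U) :
    (dil 2 lam x₀ m).restrict V = (μH[2] : Measure E3).restrict (scaleSet lam x₀ M ∩ V) := by
  have h3 : ∀ m' : Measure E3, (dil 2 lam x₀ m').restrict V =
      dil 2 lam x₀ (m'.restrict ((fun x => lam • (x - x₀)) ⁻¹' V)) := fun m' => by
    rw [dil, dil, Measure.restrict_smul, (Sc.embDn hl.ne' x₀).restrict_map]
  have h4 : (fun x => lam • (x - x₀)) ⁻¹' V ⊆ U := fun x hx => Sc.up_dn hl.ne' x₀ x ▸ hU _ hx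
  have h5 := (Sc.embDn hl.ne' x₀).measurable hV
  rw [h3, ← Measure.restrict_restrict_of_subset h4, he, Measure.restrict_restrict h5,
    ← inter_assoc, inter_comm _ M, inter_assoc, inter_eq_left.2 h4, inter_comm M,
    ← Measure.restrict_restrict h5, ← hm, ← h3, ← hm_scale hl, hm, Measure.restrict_restrict hV,
    inter_comm]

/-- **Multiplicity one**: near each point of negative time the rescaled measures are, for all large
scales, the area measures of the rescaled supports -/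
theorem meas_atTop (hG : GSStmt) (hGl : GlueStmt) (hW : WeakWhiteStmt)
    (hμ : IsIntegralBrakkeFlow 2 μ) (h0 : μ 0 univ < ⊤) (hU : IsUnitRegular μ) (ht : 0 < t₀)
    (hS : IsShr S) (hc : Cv μ x₀ t₀ S) {t : ℝ} (ht' : t < 0) (x : E3) :
    ∃ W : Set (ℝ × E3), IsOpen W ∧ (t, x) ∈ W ∧ ∀ᶠ lam : ℝ in atTop, ∀ s,
      (rescaled 2 μ x₀ t₀ lam s).restrict (tsl W s) =
        (μH[2] : Measure E3).restrict (scaleFlow lam x₀ t₀ (Spt μ) s ∩ tsl W s) := by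
  obtain ⟨-, g2, -⟩ := hGl μ fun a ha => ⟨_, hG μ hμ h0 a ha⟩
  obtain ⟨W, a1, r, C, -, a3⟩ := reg_ev hW hμ h0 hU (hG μ hμ h0 _ (half_pos ht)) (half_pos ht).le
    (half_lt_self ht) hS hc ht' x
  refine ⟨interior W, isOpen_interior, mem_interior_iff_mem_nhds.2 a1, ?_⟩
  filter_upwards [a3, eventually_gt_atTop 0] with k b1 e0 s
  exact restrict_dil (g2 _) e0
    (isOpen_interior.preimage (continuous_const.prodMk continuous_id)).measurableSet
    fun y hy => b1.1 (interior_subset hy)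

end Vale.Agent.P218S29
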